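import Vale.Agent.P352.MathlibUsed

open MeasureTheory Filter Topology
open scoped SchwartzMap

namespace Vale.Agent.P352.GF

noncomputable section

/-- Space-time indices. -/
abbrev Ix := Fin 4

/-- Minkowski space. -/
abbrev V := Ix → ℝ

/-- Complex functions on Minkowski space. -/
abbrev Fn := V → ℂ

/-- Schwartz space. -/
abbrev Sch := 𝓢(V, ℂ)

/-- The function underlying an element of Schwartz space. -/
def ev (g : Sch) : Fn := g

/-- Test functions. -/
def IsTest (f : Fn) : Prop := ∃ g, ev g = f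

/-- The time index. -/
def o : Ix := 0

/-- Diagonal of the metric, signature `(+,-,-,-)`. -/
def eta (m : Ix) : ℝ := if m = o then 1 else -1

/-- Minkowski product. -/
def mdot (x y : V) : ℝ := ∑ m, eta m * x m * y m

/-- `t` times the `m`-th coordinate unit vector. -/
def bas (m : Ix) (t : ℝ) : V := fun n => if n = m then t else 0

/-- Partial derivatives. -/
def pd (m : Ix) (f : Fn) : Fn := fun x => deriv (fun t => f fun n => x n + bas m t n) 0

/-- Complex conjugation. -/
def bar (f : Fn) : Fn := fun x => star (f x)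

/-- The similitude `x ↦ s L x + a`; the vector `L m` is the image of the `m`-th unit vector. -/
def sim (s : ℝ) (L : Ix → V) (a x : V) : V := fun n => a n + s * ∑ m, x m * L m n

/-- The identity matrix. -/
def one : Ix → V := fun m => bas m 1

/-- Proper orthochronous Lorentz transformations. -/
def IsLor (L : Ix → V) : Prop :=
  (∀ m n, mdot (L m) (L n) = bas m (eta m) n) ∧ 0 < L o o ∧ Matrix.det L = 1

/-- The supports of `f` and `g` are spacelike separated. -/
def Sep (f g : Fn) : Prop :=
  ∀ x ∈ tsupport f, ∀ y ∈ tsupport g, mdot (fun m => x m - y m) (fun m => x m - y m) < 0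

/-- Cutoffs `F R x = a(x⁰) c(x⃗ / R)` with smooth compactly supported `a`, `c`, `∫ a = 1` and
`c = 1` near zero. -/
def IsCutoff (F : ℝ → Fn) : Prop := ∃ (a : ℝ → ℝ) (c : V → ℝ), HasCompactSupport a ∧
  HasCompactSupport c ∧ ∫ t, a t = 1 ∧ (∀ᶠ x in 𝓝 0, c x = 1) ∧
  ∀ R > 0, IsTest (F R) ∧ ∀ x, F R x = a (x o) * c fun n => if n = o then 0 else x n / R

/-- Operator valued distributions on the domain `D`. -/
abbrev Fld (D : Type*) := Fn → D → D

variable (D : Type*) [NormedAddCommGroup D] [InnerProductSpace ℂ D]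

/-- A scale invariant quantum field theory. `D` is the common invariant domain of the fields;
the Hilbert space is its completion. -/
structure Theory where
  vac : D
  fld : Fld D → Prop
  bose : Fld D → Prop
  U : ℝ → (Ix → V) → V → D → D
  norm_vac : ‖vac‖ = 1
  cyclic : ∀ S : Submodule ℂ D, vac ∈ S →
    (∀ A f v, fld A → IsTest f → v ∈ S → A f v ∈ S) → Dense (S : Set D)
  lin : ∀ A f g c v, fld A → IsTest f → IsTest g →
    A (fun x => f x + c * g x) v = A f v + (c : ℂ) • A g v
  cont : ∀ A v, fld A → Continuous fun g => A (ev g) v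
  adj : ∀ A, fld A → ∃ B, fld B ∧ ∀ f v w, IsTest f → inner ℂ (A f v) w = inner ℂ v (B (bar f) w)
  bose_fld : ∀ A, bose A → fld A
  loc : ∀ A B f g v, bose A → fld B → IsTest f → IsTest g → Sep f g → A f (B g v) = B g (A f v)
  U_inner : ∀ s L a v w, 0 < s → IsLor L → inner ℂ (U s L a v) (U s L a w) = inner ℂ v w
  U_vac : ∀ s L a, 0 < s → IsLor L → U s L a vac = vac
  transl : ∀ A a f v, fld A → IsTest f →
    A f (U 1 one a v) = U 1 one a (A (fun x => f (sim 1 one a x)) v)
  spectrum : ∀ v, ∃ ν : Measure V, IsFiniteMeasure ν ∧ (∀ᵐ p ∂ν, 0 ≤ p o ∧ 0 ≤ mdot p p) ∧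
    ∀ a, inner ℂ v (U 1 one a v) = ∫ p, Complex.exp (Complex.I * mdot p a) ∂ν

variable {D}

namespace Theory

variable (Q : Theory D)

/-- Hermitian scalar field of scaling dimension `d`. -/
def IsScalar (A : Fld D) (d : ℝ) : Prop := Q.bose A ∧
  (∀ f v w, IsTest f → inner ℂ (A f v) w = inner ℂ v (A (bar f) w)) ∧
  ∀ s L a f v, 0 < s → IsLor L → IsTest f → A f (Q.U s L a v) =
    ((s ^ (4 - d) : ℝ) : ℂ) • Q.U s L a (A (fun x => f (sim s L a x)) v)

/-- A stress tensor with contravariant components `T m n`, of scaling dimension four. -/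
structure IsStress (T : Ix → Ix → Fld D) : Prop where
  bose : ∀ m n, Q.bose (T m n)
  symm : ∀ m n f v, IsTest f → T m n f v = T n m f v
  herm : ∀ m n f v w, IsTest f → inner ℂ (T m n f v) w = inner ℂ v (T m n (bar f) w)
  cov : ∀ m n s L a f v, 0 < s → IsLor L → IsTest f → T m n f (Q.U s L a v) =
    ∑ k, ∑ l, (L k m * L l n : ℂ) • Q.U s L a (T k l (fun x => f (sim s L a x)) v)
  conserved : ∀ n f v, IsTest f → ∑ m, T m n (pd m f) v = 0
  charge : ∀ F n A f v w, IsCutoff F → Q.fld A → IsTest f → HasCompactSupport f →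
    Tendsto (fun R => inner ℂ w (T o n (F R) (A f v) - A f (T o n (F R) v))) atTop
      (𝓝 (inner ℂ w ((Complex.I * eta n) • A (pd n f) v)))

/-- Vanishing truncated four point function (the one point function of a field of nonzero
scaling dimension vanishes). -/
def Free4 (A : Fld D) : Prop := ∀ f g h k, IsTest f → IsTest g → IsTest h → IsTest k →
  inner ℂ Q.vac (A f (A g (A h (A k Q.vac)))) =
    inner ℂ Q.vac (A f (A g Q.vac)) * inner ℂ Q.vac (A h (A k Q.vac)) +
    inner ℂ Q.vac (A f (A h Q.vac)) * inner ℂ Q.vac (A g (A k Q.vac)) +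
    inner ℂ Q.vac (A f (A k Q.vac)) * inner ℂ Q.vac (A g (A h Q.vac))

end Theory

/-- The improved tensor `T^{mn} + (∂^m ∂^n - η^{mn} □) L`. -/
def improve (T : Ix → Ix → Fld D) (L : Fld D) : Ix → Ix → Fld D := fun m n f v =>
  T m n f v + (eta m * eta n : ℂ) • L (pd m (pd n f)) v -
    (bas m (eta m) n : ℂ) • ∑ k, (eta k : ℂ) • L (pd k (pd k f)) v

/-- The trace of a tensor field. -/
def tr (T : Ix → Ix → Fld D) : Fld D := fun f v => ∑ m, (eta m : ℂ) • T m m f v

end

end Vale.Agent.P352.GF
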